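import Mathlib

namespace Vale.Agent.P054

open Finset

noncomputable section

variable {d : ℕ}

/-- integer box -/
def box (d K : ℕ) : Finset (Fin d → ℤ) :=
  Fintype.piFinset fun _ => Finset.Icc (-(K : ℤ)) K

lemma mem_box {K : ℕ} {u : Fin d → ℤ} : u ∈ box d K ↔ ∀ i, |u i| ≤ K := by
  simp [box, Fintype.mem_piFinset, abs_le]

lemma card_box (d K : ℕ) : (box d K).card = (2 * K + 1) ^ d := by
  have : (Finset.Icc (-(K : ℤ)) K).card = 2 * K + 1 := by
    rw [Int.card_Icc]; omega
  simp [box, Fintype.card_piFinset, this]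

/-- gcd of the entries -/
def g (u : Fin d → ℤ) : ℤ := Finset.univ.gcd u

/-- largest absolute value of the entries -/
def M (u : Fin d → ℤ) : ℕ := Finset.univ.sup fun i => (u i).natAbs

lemma bezout (u : Fin d → ℤ) (s : Finset (Fin d)) :
    ∃ b : Fin d → ℤ, ∑ i ∈ s, u i * b i = s.gcd u := by
  classical
  induction s using Finset.induction with
  | empty => exact ⟨0, by simp⟩
  | @insert a s ha ih =>
    obtain ⟨b, hb⟩ := ih
    obtain ⟨x, y, hxy⟩ := exists_gcd_eq_mul_add_mul (u a) (s.gcd u)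
    refine ⟨Function.update (fun i => y * b i) a x, ?_⟩
    rw [Finset.sum_insert ha, Finset.gcd_insert, hxy, ← hb, Finset.sum_mul]
    congr 1
    · simp
    · refine Finset.sum_congr rfl fun i hi => ?_
      have : i ≠ a := fun h => ha (h ▸ hi)
      simp [this]; ring

lemma natAbs_le_M (u : Fin d → ℤ) (i : Fin d) : (u i).natAbs ≤ M u :=
  Finset.le_sup (f := fun i => (u i).natAbs) (Finset.mem_univ i)

lemma abs_le_M (u : Fin d → ℤ) (i : Fin d) : |u i| ≤ (M u : ℤ) := by
  have := natAbs_le_M u i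
  rw [Int.abs_eq_natAbs]; exact_mod_cast this

lemma g_nonneg (u : Fin d → ℤ) : 0 ≤ g u := by
  have h : normalize (g u) = g u := Finset.normalize_gcd
  rw [← h, ← Int.abs_eq_normalize]; exact abs_nonneg _

lemma g_dvd (u : Fin d → ℤ) (i : Fin d) : g u ∣ u i := Finset.gcd_dvd (Finset.mem_univ i)

lemma g_pos {u : Fin d → ℤ} (h : u ≠ 0) : 0 < g u := by
  rcases (g_nonneg u).lt_or_eq with h' | h'
  · exact h'
  · exfalso; apply h; funext i
    have := g_dvd u i
    rw [← h'] at this
    simpa using this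

lemma M_pos {u : Fin d → ℤ} (h : u ≠ 0) : 0 < M u := by
  by_contra hc
  apply h; funext i
  have := natAbs_le_M u i
  simp only [Pi.zero_apply]; omega

lemma exists_M [Nonempty (Fin d)] (u : Fin d → ℤ) : ∃ i, (u i).natAbs = M u := by
  obtain ⟨i, _, hi⟩ := Finset.exists_mem_eq_sup Finset.univ Finset.univ_nonempty
    (fun i => (u i).natAbs)
  exact ⟨i, hi.symm⟩

/-- small representative of a prescribed value of the form -/
lemma exists_rep [Nonempty (Fin d)] {K : ℕ} {u : Fin d → ℤ} (hu : u ≠ 0) (hK : M u ≤ K)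
    (k : ℤ) (hk0 : 0 ≤ k) (hk : k * g u ≤ (K : ℤ) * M u) :
    ∃ w ∈ box d ((d + 1) * K), ∑ i, u i * w i = k * g u := by
  classical
  obtain ⟨b, hb⟩ := bezout u Finset.univ
  obtain ⟨i, hi⟩ := exists_M u
  have hM : 0 < M u := M_pos hu
  have ha : u i ≠ 0 := fun h => by rw [h] at hi; simp at hi; omega
  have hai : |u i| = (M u : ℤ) := by rw [Int.abs_eq_natAbs, hi]
  set w : Fin d → ℤ := Function.update (fun j => (k * b j) % (u i)) i
    (k * b i + ∑ j ∈ Finset.univ.erase i, u j * ((k * b j) / (u i))) with hw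
  have hsum : ∑ j, u j * w j = k * g u := by
    rw [← Finset.add_sum_erase _ _ (Finset.mem_univ i)]
    have : ∀ j ∈ Finset.univ.erase i,
        u j * w j = k * (u j * b j) - u i * (u j * ((k * b j) / (u i))) := by
      intro j hj
      have hne : j ≠ i := (Finset.mem_erase.mp hj).1
      simp only [hw, Function.update_of_ne hne]
      rw [Int.emod_def]; ring
    rw [Finset.sum_congr rfl this, Finset.sum_sub_distrib, ← Finset.mul_sum, ← Finset.mul_sum]
    simp only [hw, Function.update_self]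
    have hb' : g u = u i * b i + ∑ j ∈ Finset.univ.erase i, u j * b j := by
      rw [g, ← hb, ← Finset.add_sum_erase _ _ (Finset.mem_univ i)]
    rw [hb']; ring
  refine ⟨w, ?_, hsum⟩
  have hsmall : ∀ j ∈ Finset.univ.erase i, |w j| ≤ (M u : ℤ) := by
    intro j hj
    have hne : j ≠ i := (Finset.mem_erase.mp hj).1
    simp only [hw, Function.update_of_ne hne]
    rw [abs_of_nonneg (Int.emod_nonneg _ ha), ← hai]
    exact (Int.emod_lt_abs _ ha).le
  have hMK : (M u : ℤ) ≤ K := by exact_mod_cast hK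
  have hKd : (K : ℤ) ≤ (((d + 1) * K : ℕ) : ℤ) := by push_cast; nlinarith
  refine mem_box.mpr fun j => ?_
  by_cases hj : j = i
  · subst hj
    rw [← Finset.add_sum_erase _ _ (Finset.mem_univ j)] at hsum
    have h1 : |∑ l ∈ Finset.univ.erase j, u l * w l| ≤ (d : ℤ) * ((M u : ℤ) * M u) := by
      refine (Finset.abs_sum_le_sum_abs _ _).trans ?_
      calc ∑ l ∈ Finset.univ.erase j, |u l * w l|
          ≤ ∑ _l ∈ Finset.univ.erase j, (M u : ℤ) * M u := by
            refine Finset.sum_le_sum fun l hl => ?_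
            rw [abs_mul]
            exact mul_le_mul (abs_le_M u l) (hsmall l hl) (abs_nonneg _) (by positivity)
        _ ≤ (d : ℤ) * ((M u : ℤ) * M u) := by
            rw [Finset.sum_const, nsmul_eq_mul]
            gcongr
            simp
    have h2 : |u j * w j| ≤ (K : ℤ) * M u + (d : ℤ) * ((M u : ℤ) * M u) := by
      have h3 : u j * w j = k * g u - ∑ l ∈ Finset.univ.erase j, u l * w l := by linarith
      rw [h3]
      refine (abs_sub _ _).trans (add_le_add ?_ h1)
      rwa [abs_of_nonneg (mul_nonneg hk0 (g_nonneg u))]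
    rw [abs_mul, hai] at h2
    have h4 : |w j| ≤ (K : ℤ) + d * M u :=
      le_of_mul_le_mul_left (a := (M u : ℤ)) (by linarith) (by exact_mod_cast hM)
    push_cast
    have : (d : ℤ) * M u ≤ d * K := by gcongr
    linarith
  · exact (hsmall j (Finset.mem_erase.mpr ⟨hj, Finset.mem_univ _⟩)).trans (hMK.trans hKd)

/-- the box points orthogonal to `u` -/
def slice (K : ℕ) (u : Fin d → ℤ) : Finset (Fin d → ℤ) :=
  (box d K).filter fun v => ∑ i, u i * v i = 0

lemma slice_bound [Nonempty (Fin d)] {K : ℕ} (hK1 : 1 ≤ K) {u : Fin d → ℤ} (hu : u ≠ 0)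
    (hK : M u ≤ K) :
    ((slice K u).card : ℝ) ≤ (2 * d + 5 : ℝ) ^ d * (K : ℝ) ^ (d - 1) * (g u : ℝ) / M u := by
  classical
  have hg := g_pos hu
  have hM := M_pos hu
  set G : ℕ := (g u).toNat with hG
  have hGg : (G : ℤ) = g u := Int.toNat_of_nonneg hg.le
  have hG0 : 0 < G := by omega
  set T : ℕ := K * M u / G + 1 with hT
  have hw : ∀ k ∈ Finset.range T, ∃ w ∈ box d ((d + 1) * K), ∑ i, u i * w i = (k : ℤ) * g u := by
    intro k hk
    apply exists_rep hu hK _ (by positivity)
    rw [Finset.mem_range] at hk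
    have : k * G ≤ K * M u := (Nat.le_div_iff_mul_le hG0).mp (by omega)
    rw [← hGg]; exact_mod_cast this
  choose! w hwb hws using hw
  have hinj : T * (slice K u).card ≤ (box d ((d + 2) * K)).card := by
    conv_lhs => rw [← Finset.card_range T, ← Finset.card_product]
    refine Finset.card_le_card_of_injOn (fun kv => kv.2 + w kv.1) ?_ ?_
    · intro kv hkv
      simp only [Finset.coe_product, Set.mem_prod, Finset.mem_coe] at hkv
      simp only [Finset.mem_coe, mem_box]
      intro i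
      have h1 := mem_box.mp (hwb _ hkv.1) i
      have h2 := mem_box.mp (Finset.mem_filter.mp hkv.2).1 i
      refine (abs_add_le _ _).trans ?_
      push_cast at *
      linarith
    · intro a ha b hb hab
      simp only [Finset.coe_product, Set.mem_prod, Finset.mem_coe] at ha hb
      have hdot : ∀ kv : ℕ × (Fin d → ℤ), kv.1 ∈ Finset.range T → kv.2 ∈ slice K u →
          ∑ i, u i * (kv.2 + w kv.1) i = (kv.1 : ℤ) * g u := by
        intro kv h1 h2
        simp only [Pi.add_apply, mul_add, Finset.sum_add_distrib, hws _ h1,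
          (Finset.mem_filter.mp h2).2, zero_add]
      have hab' : a.2 + w a.1 = b.2 + w b.1 := hab
      have h := hdot a ha.1 ha.2
      rw [hab', hdot b hb.1 hb.2] at h
      have h1 : a.1 = b.1 := by exact_mod_cast (mul_right_cancel₀ hg.ne' h).symm
      rw [h1] at hab'
      exact Prod.ext h1 (add_right_cancel hab')
  rw [card_box] at hinj
  have hTG : K * M u ≤ T * G := by
    rw [hT]
    have := Nat.div_add_mod (K * M u) G
    have := Nat.mod_lt (K * M u) hG0
    nlinarith
  have hnat : K * M u * (slice K u).card ≤ (2 * d + 5) ^ d * K ^ d * G := by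
    calc K * M u * (slice K u).card ≤ T * G * (slice K u).card := by gcongr
      _ = T * (slice K u).card * G := by ring
      _ ≤ (2 * ((d + 2) * K) + 1) ^ d * G := by gcongr
      _ ≤ ((2 * d + 5) * K) ^ d * G := by gcongr; nlinarith
      _ = (2 * d + 5) ^ d * K ^ d * G := by rw [mul_pow]
  have hreal : (K : ℝ) * M u * (slice K u).card ≤ (2 * d + 5 : ℝ) ^ d * (K : ℝ) ^ d * G := by
    exact_mod_cast hnat
  have hd : 1 ≤ d := Fin.pos (Classical.arbitrary (Fin d))
  have hKR : (0 : ℝ) < K := by exact_mod_cast hK1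
  have hMR : (0 : ℝ) < M u := by exact_mod_cast hM
  have hGR : (g u : ℝ) = G := by exact_mod_cast hGg.symm
  have hpow : (K : ℝ) ^ d = (K : ℝ) ^ (d - 1) * K := by
    rw [← pow_succ]; congr 1; omega
  rw [hGR, le_div_iff₀ hMR]
  refine le_of_mul_le_mul_left (a := (K : ℝ)) ?_ hKR
  rw [hpow] at hreal
  linarith

/-- points of the box with largest entry exactly `m` -/
lemma shell_card {m L : ℕ} [Nonempty (Fin d)] :
    (((box d L).filter fun u => M u = m).card : ℝ) ≤ 2 * d * (2 * m + 1 : ℝ) ^ (d - 1) := by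
  classical
  have hsub : ((box d L).filter fun u => M u = m) ⊆
      (Finset.univ : Finset (Fin d)).biUnion fun i => Fintype.piFinset fun j =>
        if j = i then ({(m : ℤ), -(m : ℤ)} : Finset ℤ) else Finset.Icc (-(m : ℤ)) m := by
    intro u hu
    obtain ⟨-, hu⟩ := Finset.mem_filter.mp hu
    obtain ⟨i, hi⟩ := exists_M u
    refine Finset.mem_biUnion.mpr ⟨i, Finset.mem_univ _, Fintype.mem_piFinset.mpr fun j => ?_⟩
    by_cases hj : j = i
    · subst hj
      simp only [↓reduceIte, Finset.mem_insert, Finset.mem_singleton]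
      rcases Int.natAbs_eq (u j) with h | h <;> rw [hi, hu] at h
      · exact Or.inl h
      · exact Or.inr h
    · simp only [hj, ↓reduceIte, Finset.mem_Icc]
      have h := abs_le_M u j
      rw [hu, abs_le] at h; exact h
  have h1 := (Finset.card_le_card hsub).trans Finset.card_biUnion_le
  have h2 : ∀ i : Fin d, (Fintype.piFinset fun j =>
        if j = i then ({(m : ℤ), -(m : ℤ)} : Finset ℤ) else Finset.Icc (-(m : ℤ)) m).card
        ≤ 2 * (2 * m + 1) ^ (d - 1) := by
    intro i
    rw [Fintype.card_piFinset, ← Finset.mul_prod_erase _ _ (Finset.mem_univ i)]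
    refine Nat.mul_le_mul ?_ (le_of_eq ?_)
    · simp only [↓reduceIte]; exact Finset.card_le_two
    · rw [Finset.prod_congr rfl (g := fun _ => 2 * m + 1) ?_]
      · simp
      · intro j hj
        rw [if_neg (Finset.mem_erase.mp hj).1, Int.card_Icc]; omega
  have h3 : ((box d L).filter fun u => M u = m).card ≤ 2 * d * (2 * m + 1) ^ (d - 1) := by
    refine h1.trans ((Finset.sum_le_sum fun i _ => h2 i).trans ?_)
    simp; exact le_of_eq (by ring)
  exact_mod_cast h3

lemma sum_inv_M [Nonempty (Fin d)] (hd : 3 ≤ d) (L : ℕ) :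
    ∑ u ∈ (box d L).filter (fun u => u ≠ 0), (1 : ℝ) / M u
      ≤ 2 * d * 3 ^ (d - 1) * (L : ℝ) ^ (d - 1) := by
  classical
  rw [← Finset.sum_fiberwise_of_maps_to (t := Finset.Icc 1 L) (g := M)]
  · have hterm : ∀ m ∈ Finset.Icc 1 L,
        ∑ u ∈ ((box d L).filter (fun u => u ≠ 0)).filter (fun u => M u = m), (1 : ℝ) / M u
          ≤ 2 * d * 3 ^ (d - 1) * (L : ℝ) ^ (d - 2) := by
      intro m hm
      obtain ⟨hm1, hm2⟩ := Finset.mem_Icc.mp hm
      rw [Finset.sum_congr rfl (g := fun _ => (1 : ℝ) / m)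
        (fun u hu => by rw [(Finset.mem_filter.mp hu).2])]
      rw [Finset.sum_const, nsmul_eq_mul]
      have hc : ((((box d L).filter (fun u => u ≠ 0)).filter (fun u => M u = m)).card : ℝ)
          ≤ 2 * d * (2 * m + 1 : ℝ) ^ (d - 1) := by
        refine le_trans ?_ (shell_card (d := d) (m := m) (L := L))
        exact_mod_cast Finset.card_le_card
          (Finset.filter_subset_filter _ (Finset.filter_subset _ _))
      have hm0 : (0 : ℝ) < m := by exact_mod_cast hm1
      calc _ ≤ 2 * d * (2 * m + 1 : ℝ) ^ (d - 1) * (1 / m) := by gcongr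
        _ ≤ 2 * d * (3 * m : ℝ) ^ (d - 1) * (1 / m) := by
          gcongr
          have : (1 : ℝ) ≤ m := by exact_mod_cast hm1
          linarith
        _ = 2 * d * 3 ^ (d - 1) * (m : ℝ) ^ (d - 2) := by
          rw [mul_pow, show d - 1 = (d - 2) + 1 by omega, pow_succ (m : ℝ)]
          field_simp
        _ ≤ 2 * d * 3 ^ (d - 1) * (L : ℝ) ^ (d - 2) := by gcongr
    refine (Finset.sum_le_sum hterm).trans (le_of_eq ?_)
    simp only [Finset.sum_const, Nat.card_Icc, nsmul_eq_mul, add_tsub_cancel_right]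
    rw [show d - 1 = (d - 2) + 1 by omega, pow_succ]
    ring_nf
  · intro u hu
    obtain ⟨hu1, hu2⟩ := Finset.mem_filter.mp hu
    refine Finset.mem_Icc.mpr ⟨M_pos hu2, Finset.sup_le fun i _ => ?_⟩
    have := mem_box.mp hu1 i
    rw [Int.abs_eq_natAbs] at this; exact_mod_cast this

lemma sum_inv_sq (K : ℕ) : ∑ a ∈ Finset.Icc 1 K, (1 : ℝ) / (a : ℝ) ^ 2 ≤ 2 := by
  suffices h : ∀ n : ℕ, ∑ a ∈ Finset.Icc 1 (n + 1), (1 : ℝ) / (a : ℝ) ^ 2 ≤ 2 - 1 / (n + 1 : ℝ) by
    rcases K with _ | n
    · simp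
    · exact (h n).trans (by simp; positivity)
  intro n
  induction n with
  | zero => norm_num
  | succ n ih =>
    rw [Finset.sum_Icc_succ_top (by omega)]
    push_cast
    have h1 : (1 : ℝ) / (n + 1 + 1) ^ 2 ≤ 1 / (n + 1) - 1 / (n + 1 + 1) := by
      rw [div_sub_div _ _ (by positivity) (by positivity), div_le_div_iff₀ (by positivity) (by positivity)]
      nlinarith
    linarith

lemma sum_g_div_M [Nonempty (Fin d)] (hd : 3 ≤ d) (K : ℕ) :
    ∑ u ∈ (box d K).filter (fun u => u ≠ 0), (g u : ℝ) / M u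
      ≤ 4 * d * 3 ^ (d - 1) * (K : ℝ) ^ (d - 1) := by
  classical
  set A : Finset ((_ : ℕ) × (Fin d → ℤ)) :=
    (Finset.Icc 1 K).sigma fun a => (box d (K / a)).filter (fun u => u ≠ 0) with hA
  set φ : (Fin d → ℤ) → ((_ : ℕ) × (Fin d → ℤ)) :=
    fun u => ⟨(g u).toNat, fun i => u i / g u⟩ with hφ
  have hinj : Set.InjOn φ ((box d K).filter (fun u => u ≠ 0) : Finset _) := by
    intro u hu v hv h
    simp only [Finset.mem_coe, Finset.mem_filter] at hu hv
    have hgu := g_pos hu.2
    have hgv := g_pos hv.2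
    simp only [hφ, Sigma.mk.injEq, heq_eq_eq] at h
    have hg : g u = g v := by omega
    funext i
    rw [← Int.ediv_mul_cancel (g_dvd u i), congrFun h.2 i, hg, Int.ediv_mul_cancel (g_dvd v i)]
  have hval : ∀ u ∈ (box d K).filter (fun u => u ≠ 0),
      φ u ∈ A ∧ (g u : ℝ) / M u = 1 / (M (φ u).2 : ℝ) := by
    intro u hu
    obtain ⟨hub, hu0⟩ := Finset.mem_filter.mp hu
    have hgu := g_pos hu0
    have hM : M u = (g u).toNat * M (fun i => u i / g u) := by
      apply le_antisymm
      · refine Finset.sup_le fun i _ => ?_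
        calc (u i).natAbs = (g u).natAbs * (u i / g u).natAbs := by
              rw [← Int.natAbs_mul, mul_comm, Int.ediv_mul_cancel (g_dvd u i)]
          _ ≤ _ := by
              rw [show (g u).natAbs = (g u).toNat by omega]
              exact Nat.mul_le_mul_left _ (natAbs_le_M (fun i => u i / g u) i)
      · obtain ⟨i, hi⟩ := exists_M (fun i => u i / g u)
        rw [← hi, show (g u).toNat = (g u).natAbs by omega, ← Int.natAbs_mul, mul_comm,
          Int.ediv_mul_cancel (g_dvd u i)]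
        exact natAbs_le_M u i
    have hne : (fun i => u i / g u) ≠ 0 := by
      intro h; apply hu0; funext i
      rw [← Int.ediv_mul_cancel (g_dvd u i), show u i / g u = 0 from congrFun h i]; simp
    have hMK : M u ≤ K := Finset.sup_le fun i _ => by
      have := mem_box.mp hub i; rw [Int.abs_eq_natAbs] at this; exact_mod_cast this
    have hM' := M_pos hne
    have hgK : (g u).toNat ≤ K := le_trans (le_trans (Nat.le_mul_of_pos_right _ hM') hM.symm.le) hMK
    refine ⟨Finset.mem_sigma.mpr ⟨Finset.mem_Icc.mpr ⟨?_, hgK⟩,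
      Finset.mem_filter.mpr ⟨mem_box.mpr fun i => ?_, hne⟩⟩, ?_⟩
    · show 1 ≤ (g u).toNat
      omega
    · show |u i / g u| ≤ ((K / (g u).toNat : ℕ) : ℤ)
      rw [Int.abs_eq_natAbs]
      exact_mod_cast (Nat.le_div_iff_mul_le (by omega)).mpr (le_trans (by
        rw [mul_comm]; exact Nat.mul_le_mul_left _ (natAbs_le_M (fun i => u i / g u) i))
        (hM.symm.le.trans hMK))
    · have hgR : (g u : ℝ) = ((g u).toNat : ℝ) := by
        exact_mod_cast (Int.toNat_of_nonneg hgu.le).symm
      show (g u : ℝ) / M u = 1 / (M (fun i => u i / g u) : ℝ)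
      rw [hM, hgR, Nat.cast_mul]
      have hpos : 0 < (g u).toNat := by omega
      field_simp
  calc ∑ u ∈ (box d K).filter (fun u => u ≠ 0), (g u : ℝ) / M u
      = ∑ p ∈ ((box d K).filter (fun u => u ≠ 0)).image φ, 1 / (M p.2 : ℝ) := by
        rw [Finset.sum_image hinj]
        exact Finset.sum_congr rfl fun u hu => (hval u hu).2
    _ ≤ ∑ p ∈ A, 1 / (M p.2 : ℝ) := by
        refine Finset.sum_le_sum_of_subset_of_nonneg ?_ (fun p _ _ => by positivity)
        intro p hp
        obtain ⟨u, hu, rfl⟩ := Finset.mem_image.mp hp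
        exact (hval u hu).1
    _ = ∑ a ∈ Finset.Icc 1 K, ∑ u ∈ (box d (K / a)).filter (fun u => u ≠ 0), (1 : ℝ) / M u :=
        Finset.sum_sigma _ _ _
    _ ≤ ∑ a ∈ Finset.Icc 1 K, 2 * d * 3 ^ (d - 1) * (K : ℝ) ^ (d - 1) * (1 / (a : ℝ) ^ 2) := by
        refine Finset.sum_le_sum fun a ha => (sum_inv_M hd _).trans ?_
        have ha1 : (1 : ℝ) ≤ a := by exact_mod_cast (Finset.mem_Icc.mp ha).1
        have h1 : ((K / a : ℕ) : ℝ) ≤ (K : ℝ) / a := Nat.cast_div_le
        calc 2 * d * 3 ^ (d - 1) * ((K / a : ℕ) : ℝ) ^ (d - 1)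
            ≤ 2 * d * 3 ^ (d - 1) * ((K : ℝ) / a) ^ (d - 1) := by gcongr
          _ = 2 * d * 3 ^ (d - 1) * (K : ℝ) ^ (d - 1) * (1 / (a : ℝ) ^ (d - 1)) := by
              rw [div_pow]; ring
          _ ≤ _ := by
              gcongr
              omega
    _ ≤ 4 * d * 3 ^ (d - 1) * (K : ℝ) ^ (d - 1) := by
        rw [← Finset.mul_sum]
        calc _ ≤ 2 * d * 3 ^ (d - 1) * (K : ℝ) ^ (d - 1) * 2 := by gcongr; exact sum_inv_sq K
          _ = _ := by ring

/-- the orthogonal pairs in the box -/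
def orthPairs (d K : ℕ) : Finset ((_ : Fin d → ℤ) × (Fin d → ℤ)) :=
  (box d K).sigma fun u => slice K u

/-- constant -/
noncomputable def C (d : ℕ) : ℝ := 3 ^ d + (2 * d + 5 : ℝ) ^ d * (4 * d * 3 ^ (d - 1))

lemma orth_bound {d K : ℕ} (hd : 3 ≤ d) (hK : 1 ≤ K) :
    ((orthPairs d K).card : ℝ) ≤ C d * (K : ℝ) ^ (2 * d - 2) := by
  classical
  have : Nonempty (Fin d) := ⟨⟨0, by omega⟩⟩
  have hKR : (1 : ℝ) ≤ K := by exact_mod_cast hK
  rw [orthPairs, Finset.card_sigma, Nat.cast_sum,
    ← Finset.add_sum_erase _ _ (show (0 : Fin d → ℤ) ∈ box d K from mem_box.mpr (by simp))]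
  have h0 : ((slice K (0 : Fin d → ℤ)).card : ℝ) ≤ 3 ^ d * (K : ℝ) ^ (2 * d - 2) := by
    calc ((slice K (0 : Fin d → ℤ)).card : ℝ) ≤ ((box d K).card : ℝ) := by
          exact_mod_cast Finset.card_le_card (Finset.filter_subset _ _)
      _ = (2 * K + 1 : ℝ) ^ d := by rw [card_box]; push_cast; ring
      _ ≤ (3 * K : ℝ) ^ d := by gcongr; linarith
      _ ≤ _ := by
          rw [mul_pow]; gcongr
          omega
  have h1 : ∑ u ∈ (box d K).erase 0, ((slice K u).card : ℝ)
      ≤ (2 * d + 5 : ℝ) ^ d * (4 * d * 3 ^ (d - 1)) * (K : ℝ) ^ (2 * d - 2) := by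
    have he : (box d K).erase 0 = (box d K).filter (fun u => u ≠ 0) := by
      ext u; simp [Finset.mem_erase, and_comm]
    rw [he]
    calc _ ≤ ∑ u ∈ (box d K).filter (fun u => u ≠ 0),
          (2 * d + 5 : ℝ) ^ d * (K : ℝ) ^ (d - 1) * ((g u : ℝ) / M u) := by
          refine Finset.sum_le_sum fun u hu => ?_
          obtain ⟨hu1, hu2⟩ := Finset.mem_filter.mp hu
          refine (slice_bound hK hu2 (Finset.sup_le fun i _ => ?_)).trans (le_of_eq (by ring))
          have := mem_box.mp hu1 i; rw [Int.abs_eq_natAbs] at this; exact_mod_cast this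
      _ = (2 * d + 5 : ℝ) ^ d * (K : ℝ) ^ (d - 1) *
          ∑ u ∈ (box d K).filter (fun u => u ≠ 0), (g u : ℝ) / M u := by rw [Finset.mul_sum]
      _ ≤ (2 * d + 5 : ℝ) ^ d * (K : ℝ) ^ (d - 1) * (4 * d * 3 ^ (d - 1) * (K : ℝ) ^ (d - 1)) := by
          gcongr; exact sum_g_div_M hd K
      _ = _ := by
          rw [show 2 * d - 2 = (d - 1) + (d - 1) by omega, pow_add]; ring
  unfold C
  nlinarith

/-- Cauchy-Schwarz: lattice points in a box take many values of the squared norm. -/
lemma norm_values {d R : ℕ} (hd : 3 ≤ d) (hR : 1 ≤ R) (D : Finset (Fin d → ℤ))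
    (hD : D ⊆ box d R) :
    (D.card : ℝ) ^ 2 ≤ ((D.image fun v => ∑ i, v i ^ 2).card : ℝ) *
      (C d * (2 * R : ℝ) ^ (2 * d - 2)) := by
  classical
  set N : (Fin d → ℤ) → ℤ := fun v => ∑ i, v i ^ 2 with hN
  set c : ℤ → ℕ := fun n => (D.filter fun v => N v = n).card with hc
  set E := (D ×ˢ D).filter fun p => N p.1 = N p.2 with hE
  have hsum : D.card = ∑ n ∈ D.image N, c n :=
    Finset.card_eq_sum_card_fiberwise fun v hv => Finset.mem_image_of_mem N hv
  have hEc : E.card = ∑ n ∈ D.image N, c n ^ 2 := by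
    rw [Finset.card_eq_sum_card_fiberwise (f := fun p => N p.1) (t := D.image N)
      (fun p hp => Finset.mem_image_of_mem N (Finset.mem_product.mp (Finset.mem_filter.mp hp).1).1)]
    refine Finset.sum_congr rfl fun n _ => ?_
    rw [sq, hc, ← Finset.card_product]
    refine congrArg Finset.card ?_
    ext p
    simp only [Finset.mem_filter, Finset.mem_product, E]
    constructor
    · rintro ⟨⟨⟨h1, h2⟩, h3⟩, h4⟩; exact ⟨⟨h1, h4⟩, h2, h3 ▸ h4⟩
    · rintro ⟨⟨h1, h4⟩, h2, h5⟩; exact ⟨⟨⟨h1, h2⟩, h4.trans h5.symm⟩, h4⟩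
  have hEO : E.card ≤ (orthPairs d (2 * R)).card := by
    refine Finset.card_le_card_of_injOn (fun p => ⟨p.1 - p.2, p.1 + p.2⟩) ?_ ?_
    · intro p hp
      simp only [Finset.mem_coe, hE, Finset.mem_filter, Finset.mem_product] at hp
      obtain ⟨⟨h1, h2⟩, h3⟩ := hp
      have b1 := mem_box.mp (hD h1)
      have b2 := mem_box.mp (hD h2)
      simp only [Finset.mem_coe, orthPairs, Finset.mem_sigma, slice, Finset.mem_filter, mem_box]
      refine ⟨fun i => ?_, fun i => ?_, ?_⟩
      · push_cast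
        exact (abs_sub _ _).trans (by linarith [b1 i, b2 i])
      · push_cast
        exact (abs_add_le _ _).trans (by linarith [b1 i, b2 i])
      · calc ∑ i, (p.1 - p.2) i * (p.1 + p.2) i = ∑ i, (p.1 i ^ 2 - p.2 i ^ 2) :=
              Finset.sum_congr rfl fun i _ => by simp only [Pi.sub_apply, Pi.add_apply]; ring
          _ = 0 := by rw [Finset.sum_sub_distrib]; exact sub_eq_zero.mpr h3
    · intro p _ q _ h
      simp only [Sigma.mk.injEq, heq_eq_eq] at h
      refine Prod.ext ?_ ?_ <;> funext i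
      · have h1 := congrFun h.1 i; have h2 := congrFun h.2 i
        simp only [Pi.sub_apply, Pi.add_apply] at h1 h2; omega
      · have h1 := congrFun h.1 i; have h2 := congrFun h.2 i
        simp only [Pi.sub_apply, Pi.add_apply] at h1 h2; omega
  have hCS : (D.card : ℝ) ^ 2 ≤ ((D.image N).card : ℝ) * (E.card : ℝ) := by
    rw [hsum, hEc]; push_cast
    exact sq_sum_le_card_mul_sum_sq
  refine hCS.trans ?_
  gcongr
  calc (E.card : ℝ) ≤ ((orthPairs d (2 * R)).card : ℝ) := by exact_mod_cast hEO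
    _ ≤ C d * ((2 * R : ℕ) : ℝ) ^ (2 * d - 2) := orth_bound hd (by omega)
    _ = _ := by push_cast; ring

end

end Vale.Agent.P054
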